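import Vale.Agent.P160K.FewValues

namespace Vale.Agent.Results.P160.FewValues

open Vale.Agent.P160K

/-- Let `M ≥ 3`. For all large `n` and all `D ≤ n^(1/2 - 1/M)`, the probability that the symmetric
sign matrix has a nonzero kernel vector which has at least `n / M` zero coordinates or takes at
most `D` distinct values is at least `2^(-n)` and at most `16 (n+1)^4 2^(-n)`. -/
theorem result (M : ℕ) (hM : 3 ≤ M) :
    ∃ n₀ : ℕ, ∀ n ≥ n₀, ∀ D : ℕ, D ^ (2 * M) ≤ n ^ (M - 2) →
      2 ^ Fintype.card (Sym2 (Fin n)) ≤ 2 ^ n * (BadValues M n D).card ∧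
      2 ^ n * (BadValues M n D).card ≤ 16 * (n + 1) ^ 4 * 2 ^ Fintype.card (Sym2 (Fin n)) :=
  few_values_bound M hM

end Vale.Agent.Results.P160.FewValues
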