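import Vale.Agent.P160.Family

namespace Vale.Agent.P160

open Finset Matrix

lemma family_bound {n t : ℕ} {σ : ℝ} (hσ0 : 0 < σ) (hσ1 : σ ≤ 1) (hn : 2 * t ≤ n)
    (hratio : ((t.choose (t / 2) : ℕ) : ℝ) ≤ σ ^ 2 * 2 ^ t)
    (v : Fin n → ℝ) (hv : t ≤ suppCard v) (F : Finset (Config n))
    (hF : ∀ ω ∈ F, signMatrix ω *ᵥ v = 0) :
    (F.card : ℝ) ≤ σ ^ n * 2 ^ Fintype.card (Sym2 (Fin n)) := by
  classical
  rw [suppCard_eq v] at hv
  obtain ⟨T, hTsub, hTcard⟩ := Finset.exists_subset_card_eq hv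
  have hT : ∀ j ∈ T, v j ≠ 0 := fun j hj => (Finset.mem_filter.mp (hTsub hj)).2
  have h1 := fixed_vector_count v T hT
  rw [hTcard] at h1
  have hFsub : F ⊆ univ.filter (fun ω : Config n => signMatrix ω *ᵥ v = 0) := by
    intro ω hω
    exact Finset.mem_filter.mpr ⟨mem_univ _, hF ω hω⟩
  have h2 : F.card * (2 ^ t) ^ (n - t)
      ≤ 2 ^ Fintype.card (Sym2 (Fin n)) * (t.choose (t / 2)) ^ (n - t) :=
    (Nat.mul_le_mul_right _ (Finset.card_le_card hFsub)).trans h1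
  have h3 : (F.card : ℝ) * (2 ^ t) ^ (n - t)
      ≤ 2 ^ Fintype.card (Sym2 (Fin n)) * ((t.choose (t / 2) : ℕ) : ℝ) ^ (n - t) := by
    exact_mod_cast h2
  have h4 : ((t.choose (t / 2) : ℕ) : ℝ) ^ (n - t) ≤ (σ ^ 2 * 2 ^ t) ^ (n - t) :=
    pow_le_pow_left₀ (by positivity) hratio _
  have h5 : (σ ^ 2) ^ (n - t) ≤ σ ^ n := by
    rw [← pow_mul]
    exact pow_le_pow_of_le_one hσ0.le hσ1 (by omega)
  have h6 : (0 : ℝ) < (2 ^ t) ^ (n - t) := by positivity
  have h7 : (F.card : ℝ) * (2 ^ t) ^ (n - t)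
      ≤ (σ ^ n * 2 ^ Fintype.card (Sym2 (Fin n))) * (2 ^ t) ^ (n - t) := by
    calc (F.card : ℝ) * (2 ^ t) ^ (n - t)
        ≤ 2 ^ Fintype.card (Sym2 (Fin n)) * ((t.choose (t / 2) : ℕ) : ℝ) ^ (n - t) := h3
      _ ≤ 2 ^ Fintype.card (Sym2 (Fin n)) * (σ ^ 2 * 2 ^ t) ^ (n - t) :=
          mul_le_mul_of_nonneg_left h4 (by positivity)
      _ = 2 ^ Fintype.card (Sym2 (Fin n)) * ((σ ^ 2) ^ (n - t) * (2 ^ t) ^ (n - t)) := by
          rw [mul_pow]
      _ ≤ 2 ^ Fintype.card (Sym2 (Fin n)) * (σ ^ n * (2 ^ t) ^ (n - t)) := by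
          apply mul_le_mul_of_nonneg_left _ (by positivity)
          exact mul_le_mul_of_nonneg_right h5 h6.le
      _ = (σ ^ n * 2 ^ Fintype.card (Sym2 (Fin n))) * (2 ^ t) ^ (n - t) := by ring
  exact le_of_mul_le_mul_right h7 h6

end Vale.Agent.P160

open Vale.Agent.P160 Finset Matrix in
/-- For symmetric sign matrices, the event that there is a nonzero real kernel vector which is
sparse (at most `α n` nonzero coordinates, real entries arbitrary) or lies in a prescribed family of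
at most `K ^ n` vectors has probability at most `(1 / 2 + ε) ^ n` for large `n`. -/
theorem Vale.Agent.Results.P160.StructuredKernel.result :
    ∀ ε : ℝ, 0 < ε → ∃ α : ℝ, 0 < α ∧ ∀ K : ℝ, 0 < K → ∃ n₀ : ℕ, ∀ n : ℕ, n₀ ≤ n →
      ∀ V : Finset (Fin n → ℝ), (V.card : ℝ) ≤ K ^ n →
        (Nat.card {ω : Config n // ∃ v : Fin n → ℝ, v ≠ 0 ∧ signMatrix ω *ᵥ v = 0 ∧
            ((suppCard v : ℝ) ≤ α * n ∨ v ∈ V)} : ℝ)
          ≤ (1 / 2 + ε) ^ n * (Nat.card (Config n) : ℝ) := by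
  classical
  intro ε hε
  obtain ⟨α, hα, hsparse⟩ := sparse_rate (ε := ε / 2) (by positivity)
  refine ⟨α, hα, ?_⟩
  intro K hK
  set K' : ℝ := max K 1 with hK'
  have hK'1 : 1 ≤ K' := le_max_right _ _
  have hK'K : K ≤ K' := le_max_left _ _
  set σ : ℝ := 1 / (4 * K') with hσ
  have hσ0 : 0 < σ := by positivity
  have hσ1 : σ ≤ 1 := by
    rw [hσ, div_le_one (by positivity)]; linarith
  obtain ⟨k, hk0, hk⟩ := exists_even_ratio hσ0
  set t := 2 * k with ht
  -- the ratio of the two exponential rates eventually exceeds 2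
  set a : ℝ := 1 / 2 + ε / 2 with ha
  set b : ℝ := 1 / 2 + ε with hb
  have ha0 : 0 < a := by positivity
  have hab : 1 < b / a := by
    rw [lt_div_iff₀ ha0]; linarith
  obtain ⟨n₁, hn₁⟩ := pow_unbounded_of_one_lt 2 hab
  obtain ⟨n₂, hn₂⟩ := exists_nat_ge ((t : ℝ) / α)
  refine ⟨max (max (2 * t) n₁) n₂, ?_⟩
  intro n hn V hV
  have hn1 : 2 * t ≤ n := le_trans (le_trans (le_max_left _ _) (le_max_left _ _)) hn
  have hn2 : n₁ ≤ n := le_trans (le_trans (le_max_right _ _) (le_max_left _ _)) hn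
  have hn3 : n₂ ≤ n := le_trans (le_max_right _ _) hn
  have htα : (t : ℝ) ≤ α * n := by
    have h1 : (t : ℝ) / α ≤ n := hn₂.trans (by exact_mod_cast hn3)
    rw [div_le_iff₀ hα] at h1
    linarith
  set Ω : ℝ := 2 ^ Fintype.card (Sym2 (Fin n)) with hΩ
  have hΩ0 : 0 < Ω := by positivity
  have hcardΩ : (Nat.card (Config n) : ℝ) = Ω := by
    rw [Nat.card_eq_fintype_card, Fintype.card_fun, Fintype.card_bool]
    push_cast
    rfl
  rw [hcardΩ, Nat.card_eq_fintype_card, Fintype.card_subtype]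
  set P : Config n → Prop := fun ω => ∃ v : Fin n → ℝ, v ≠ 0 ∧ signMatrix ω *ᵥ v = 0 ∧
    ((suppCard v : ℝ) ≤ α * n ∨ v ∈ V) with hP
  set m : ℕ := ⌊α * n⌋₊ with hm
  have hmle : (m : ℝ) ≤ α * n := Nat.floor_le (by positivity)
  set F₁ : Finset (Config n) := univ.filter (fun ω => HasSparseKernel ω m) with hF₁
  have hF₁card : (F₁.card : ℝ) ≤ a ^ n * Ω :=
    hsparse n m hmle F₁ (fun ω hω => (Finset.mem_filter.mp hω).2)
  set V' : Finset (Fin n → ℝ) := V.filter (fun v => t ≤ suppCard v) with hV'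
  set F₂ : Finset (Config n) := V'.biUnion
    (fun v => univ.filter (fun ω : Config n => signMatrix ω *ᵥ v = 0)) with hF₂
  have hF₂card : (F₂.card : ℝ) ≤ (1 / 4) ^ n * Ω := by
    have h1 : (F₂.card : ℝ) ≤ ∑ v ∈ V',
        ((univ.filter (fun ω : Config n => signMatrix ω *ᵥ v = 0)).card : ℝ) := by
      exact_mod_cast Finset.card_biUnion_le
    have h2 : ∀ v ∈ V', ((univ.filter (fun ω : Config n => signMatrix ω *ᵥ v = 0)).card : ℝ)
        ≤ σ ^ n * Ω := by
      intro v hv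
      refine family_bound hσ0 hσ1 hn1 ?_ v (Finset.mem_filter.mp hv).2 _
        (fun ω hω => (Finset.mem_filter.mp hω).2)
      have e1 : t / 2 = k := by omega
      rw [ht] at *
      exact hk
    have h3 : (V'.card : ℝ) ≤ K' ^ n := by
      have : (V'.card : ℝ) ≤ V.card := by
        exact_mod_cast Finset.card_filter_le _ _
      exact this.trans (hV.trans (pow_le_pow_left₀ hK.le hK'K n))
    calc (F₂.card : ℝ) ≤ ∑ v ∈ V', ((univ.filter (fun ω : Config n => signMatrix ω *ᵥ v = 0)).card : ℝ) := h1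
      _ ≤ ∑ _v ∈ V', σ ^ n * Ω := Finset.sum_le_sum h2
      _ = V'.card * (σ ^ n * Ω) := by rw [Finset.sum_const, nsmul_eq_mul]
      _ ≤ K' ^ n * (σ ^ n * Ω) := mul_le_mul_of_nonneg_right h3 (by positivity)
      _ = (K' * σ) ^ n * Ω := by rw [mul_pow]; ring
      _ = (1 / 4) ^ n * Ω := by
          congr 2
          rw [hσ]; field_simp
  have hsub : univ.filter P ⊆ F₁ ∪ F₂ := by
    intro ω hω
    obtain ⟨v, hv0, hvA, hv⟩ := (Finset.mem_filter.mp hω).2
    by_cases hvs : (suppCard v : ℝ) ≤ α * n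
    · apply Finset.mem_union_left
      refine Finset.mem_filter.mpr ⟨mem_univ _, v, hv0, hvA, Nat.le_floor hvs⟩
    · apply Finset.mem_union_right
      have hvV : v ∈ V := hv.resolve_left hvs
      have hts : t ≤ suppCard v := by
        have : (t : ℝ) ≤ suppCard v := htα.trans (not_le.mp hvs).le
        exact_mod_cast this
      exact Finset.mem_biUnion.mpr
        ⟨v, Finset.mem_filter.mpr ⟨hvV, hts⟩, Finset.mem_filter.mpr ⟨mem_univ _, hvA⟩⟩
  have hcard : ((univ.filter P).card : ℝ) ≤ a ^ n * Ω + (1 / 4) ^ n * Ω := by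
    have h1 : (univ.filter P).card ≤ F₁.card + F₂.card :=
      (Finset.card_le_card hsub).trans (Finset.card_union_le _ _)
    have h2 : ((univ.filter P).card : ℝ) ≤ F₁.card + F₂.card := by exact_mod_cast h1
    linarith
  have h14 : (1 / 4 : ℝ) ^ n ≤ a ^ n :=
    pow_le_pow_left₀ (by norm_num) (by rw [ha]; linarith) n
  have h2a : 2 * a ^ n ≤ b ^ n := by
    have h1 : (2 : ℝ) ≤ (b / a) ^ n := by
      have h2 : (b / a) ^ n₁ ≤ (b / a) ^ n := pow_le_pow_right₀ hab.le hn2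
      exact hn₁.le.trans h2
    rw [div_pow, le_div_iff₀ (by positivity)] at h1
    exact h1
  calc ((univ.filter P).card : ℝ) ≤ a ^ n * Ω + (1 / 4) ^ n * Ω := hcard
    _ ≤ a ^ n * Ω + a ^ n * Ω := by
        have := mul_le_mul_of_nonneg_right h14 hΩ0.le
        linarith
    _ = (2 * a ^ n) * Ω := by ring
    _ ≤ b ^ n * Ω := mul_le_mul_of_nonneg_right h2a hΩ0.le
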