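import Vale.Agent.P160K.Final

namespace Vale.Agent.Results.P160.ZerosOrFamily

open Vale.Agent.P160K

/-- Let `M ≥ 3`. For all large `n` and every finite family `𝒲` of subspaces of `ℝ^n` with
`|𝒲| ≤ n^((1/2 - 1/M) n)` and `dim W ≤ n / M`, the probability that the symmetric sign matrix
has a nonzero kernel vector which has at least `n / M` zero coordinates or lies in a member of
`𝒲` is at least `2^(-n)` and at most `16 (n+1)^4 2^(-n)`. -/
theorem result (M : ℕ) (hM : 3 ≤ M) :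
    ∃ n₀ : ℕ, ∀ n ≥ n₀, ∀ 𝒲 : Finset (Submodule ℝ (Fin n → ℝ)),
      𝒲.card ^ (2 * M) ≤ n ^ ((M - 2) * n) →
      (∀ W ∈ 𝒲, M * Module.finrank ℝ W ≤ n) →
      2 ^ Fintype.card (Sym2 (Fin n)) ≤ 2 ^ n * (BadSet M n 𝒲).card ∧
      2 ^ n * (BadSet M n 𝒲).card ≤ 16 * (n + 1) ^ 4 * 2 ^ Fintype.card (Sym2 (Fin n)) :=
  main_bound M hM

end Vale.Agent.Results.P160.ZerosOrFamily
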